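import Vale.Agent.P102.Main

open MeasureTheory

/-- A map that is mixing of order `k - 1` has no asymptotically exact additive relation
of length `k` in a nonconstant finite valued observable. -/
theorem Vale.Agent.Results.P102.ExactRelationGap.result
    {Ω : Type*} [MeasurableSpace Ω] (μ : Measure Ω) [IsProbabilityMeasure μ]
    {G : Type*} [AddCommGroup G] [Finite G] [MeasurableSpace G] [MeasurableSingletonClass G]
    (T : Ω → Ω) (hT : MeasurePreserving T μ μ) (f : Ω → G) (hf : Measurable f)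
    (k : ℕ) (hk : 3 ≤ k) (hmix : Vale.Agent.P102.MixingOfOrder T μ (k - 1))
    (hne : ¬ ∃ c, ∀ᵐ x ∂μ, f x = c) :
    ∃ δ : ℝ, 0 < δ ∧ ∃ N : ℕ, ∀ t : Fin k → ℕ,
      (∀ i j : Fin k, i < j → t i + N ≤ t j) →
      ∀ (a : Fin k → G ≃+ G) (c : G),
        δ ≤ μ.real {x | ∑ i, a i (f (T^[t i] x)) ≠ c} := by
  obtain ⟨m, rfl⟩ := Nat.exists_eq_add_of_le' hk
  exact Vale.Agent.P102.relation_gap hT hf hmix hne
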